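import Vale.Agent.P032X.H763.DMin

/-!
# P032: the special point of a two-pair point of a six-coloured planar map

`K3`: a point with four colours, three of them colours of the two-pair point, in the closure of an
exact arc; `C1`: two points of the unit circle at distance one, one of them with four colours, which
both have the two missing colours.  `dfin`: from the theorem on minimal frames to planar maps.
-/

open Set Filter Topology Metric

noncomputable section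

namespace Vale.Agent.P032.H763

open Vale.Agent.P032.Six Vale.Agent.P032.H355

/-- a point with four colours at the end of an exact arc, with three colours of `z` -/
def K3 (T : ℂ → Set (Fin 6)) (z : ℂ) (a b : Fin 6) : Prop :=
  ∃ v, v ∈ closure {y | dist y z = 1 ∧ ∀ᶠ q in 𝓝[sphere z 1] y, T q = {a, b}} ∧
    (T v).ncard = 4 ∧ 3 ≤ (T v ∩ T z).ncard

/-- two points of the circle at distance one with the missing colours, one of them with four
colours -/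
def C1 (T : ℂ → Set (Fin 6)) (z : ℂ) : Prop :=
  ∃ v v', dist v z = 1 ∧ dist v' z = 1 ∧ dist v v' = 1 ∧ (T v).ncard = 4 ∧
    (T z)ᶜ ⊆ T v ∧ (T z)ᶜ ⊆ T v'

variable {κ ι : Type*} {g : ι → ℝ → EuclideanSpace ℝ (Fin 2)}
    {G : κ → Set (EuclideanSpace ℝ (Fin 2))} {T : ℂ → Set (Fin 6)}

/-- four colours which do not contain both missing colours of `z` contain three colours of `z` -/
theorem three_of {z v : ℂ} (hz : (T z).ncard = 4) (hv : (T v).ncard = 4)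
    (h : ¬ (T z)ᶜ ⊆ T v) : 3 ≤ (T v ∩ T z).ncard := by
  have h1 : (T v ∩ T z).ncard + (T v \ T z).ncard = (T v).ncard :=
    Set.ncard_inter_add_ncard_sdiff_eq_ncard (T v) (T z) (Set.toFinite _)
  have h2 : (T v \ T z).ncard < ((T z)ᶜ).ncard := by
    refine Set.ncard_lt_ncard ⟨fun i hi => hi.2, fun h3 => h fun i hi => (h3 hi).1⟩
      (Set.toFinite _)
  have h3 := Set.ncard_add_ncard_compl (T z)
  rw [Nat.card_eq_fintype_card, Fintype.card_fin] at h3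
  omega

/-- the planar form of the alternative -/
def Alt (F : Fin 6 → Set (EuclideanSpace ℝ (Fin 2))) : Prop :=
  ∃ z a b c d, [a, b, c, d].Nodup ∧ (∀ j, z ∈ F j ↔ j ∈ [a, b, c, d]) ∧
    (∃ p, dist p z = 1 ∧ ∃ r > 0, ∀ y, dist y z = 1 → dist y p < r →
      ∀ j, y ∈ F j ↔ j = a ∨ j = b) ∧
    (∃ p, dist p z = 1 ∧ ∃ r > 0, ∀ y, dist y z = 1 → dist y p < r →
      ∀ j, y ∈ F j ↔ j = c ∨ j = d) ∧
    ((∃ v, {j | v ∈ F j}.ncard = 4 ∧ 3 ≤ ({j | v ∈ F j} ∩ {j | z ∈ F j}).ncard ∧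
      v ∈ closure {p | dist p z = 1 ∧ ∃ r > 0, ∀ y, dist y z = 1 → dist y p < r →
        {j | y ∈ F j} = {a, b}}) ∨
    ∃ v v', dist v z = 1 ∧ dist v' z = 1 ∧ dist v v' = 1 ∧ {j | v ∈ F j}.ncard = 4 ∧
      ∀ j, z ∉ F j → v ∈ F j ∧ v' ∈ F j)

theorem alt_of (φ : ℂ ≃ₗᵢ[ℝ] EuclideanSpace ℝ (Fin 2)) {z : ℂ}
    {a b c d : Fin 6} (hz : DPt T z a b c d) (hk : K3 T z a b ∨ C1 T z) :
    Alt fun i => {x | i ∈ T (φ.symm x)} := by
  refine ⟨φ z, a, b, c, d, (dpt_form hz φ).1, (dpt_form hz φ).2, ?_, ?_, ?_⟩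
  · obtain ⟨p, hp⟩ := hz.arc1
    exact arc_rad hp φ
  · obtain ⟨p, hp⟩ := hz.arc2
    exact arc_rad hp φ
  · rcases hk with ⟨v, hv, hv4, hv3⟩ | ⟨v, v', h1, h2, h3, h4, h6, h7⟩
    · refine Or.inl ⟨φ v, (card_phi φ v).trans hv4, ?_, ex_cl φ hv⟩
      rw [pal_phi, pal_phi]
      exact hv3
    · refine Or.inr ⟨φ v, φ v', by rw [φ.dist_map]; exact h1, by rw [φ.dist_map]; exact h2,
        by rw [φ.dist_map]; exact h3, (card_phi φ v).trans h4, fun j hj => ?_⟩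
      have hj' : j ∈ (T z)ᶜ := by
        intro h8
        apply hj
        show j ∈ T (φ.symm (φ z))
        rw [φ.symm_apply_apply]
        exact h8
      constructor
      · show j ∈ T (φ.symm (φ v))
        rw [φ.symm_apply_apply]
        exact h6 hj'
      · show j ∈ T (φ.symm (φ v'))
        rw [φ.symm_apply_apply]
        exact h7 hj'

/-- **The special point of a two-pair point of a six-coloured planar map** -/
theorem dfin (hX : ∀ U T, MapC U T → (∀ z, (T z).ncard ≤ 5) →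
      ∀ z v, dist z v = 1 → (T z).ncard = 5 → 4 ≤ (T v).ncard → False)
    (hF : ∀ U T, MapFr U T → (∀ z, (T z).ncard ≤ 5) →
      (∀ x y, dist x y = 1 → 4 ≤ (T x).ncard → (T y).ncard ≤ 4) →
      ∃ z a b c d, DPt T z a b c d ∧ (K3 T z a b ∨ C1 T z))
    (h : PlMap g G) (c : κ → Fin 6)
    (hc : ∀ f f', c f = c f' → ∀ x ∈ G f, ∀ y ∈ G f', dist x y ≠ 1) :
    ∃ U F : Fin 6 → Set (EuclideanSpace ℝ (Fin 2)), Sts G c U F ∧
      (∀ x y, dist x y = 1 → 4 ≤ {j | x ∈ F j}.ncard → {j | y ∈ F j}.ncard ≤ 4) ∧ Alt F := by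
  obtain ⟨φ, U, T, hU, h5, h54, hS⟩ := exists_min hX h c hc
  obtain ⟨z, a, b, c', d, hz, hk⟩ := hF U T hU h5 h54
  exact ⟨_, _, hS, fun x y hxy hx => h54 (φ.symm x) (φ.symm y)
    (by rw [φ.symm.dist_map]; exact hxy) hx, alt_of φ hz hk⟩

/-- **The same with both frames** in the condition, in the form of `H942.k3_or_c1` -/
theorem dfinP (hX : ∀ U T, MapC U T → (∀ z, (T z).ncard ≤ 5) →
      ∀ z v, dist z v = 1 → (T z).ncard = 5 → 4 ≤ (T v).ncard → False)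
    (hF : ∀ U T T', MapPr U T T' →
      (∀ z v, dist z v = 1 → (T' z).ncard = 5 → 4 ≤ (T' v).ncard → False) →
      (∃ z a b c d v, DPt T z a b c d ∧
        v ∈ closure {y | dist y z = 1 ∧ ∀ᶠ q in 𝓝[sphere z 1] y, T q = {a, b}} ∧
        (T v).ncard = 4 ∧ ¬ (T z)ᶜ ⊆ T v) ∨
      ∃ z a b c d y y', DPt T z a b c d ∧ dist y z = 1 ∧ dist y' z = 1 ∧ dist y y' = 1 ∧
        (T z)ᶜ ⊆ T y ∧ (T z)ᶜ ⊆ T y' ∧ (T y).ncard = 4)
    (h : PlMap g G) (c : κ → Fin 6)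
    (hc : ∀ f f', c f = c f' → ∀ x ∈ G f, ∀ y ∈ G f', dist x y ≠ 1) :
    ∃ U F : Fin 6 → Set (EuclideanSpace ℝ (Fin 2)), Sts G c U F ∧
      (∀ x y, dist x y = 1 → 4 ≤ {j | x ∈ F j}.ncard → {j | y ∈ F j}.ncard ≤ 4) ∧ Alt F := by
  obtain ⟨φ, U, T, T', hU, hG⟩ := exists_prU h c hc
  have hX' := hX U T' hU.cn hU.le'
  refine ⟨_, _, exists_sts' hU.fr.irr hU.fr.lf hU.fr.ct hU.le φ hG, fun x y hxy hx => ?_, ?_⟩
  · by_contra hcon
    push Not at hcon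
    have h5 := hU.le (φ.symm y)
    exact hU.noX hX' (φ.symm y) (φ.symm x)
      (by rw [dist_comm, φ.symm.dist_map]; exact hxy) (le_antisymm h5 hcon) hx
  · rcases hF U T T' hU hX' with ⟨z, a, b, c', d, v, hz, hv, hv4, hv3⟩ |
      ⟨z, a, b, c', d, y, y', hz, h1, h2, h3, h6, h7, h4⟩
    · exact alt_of φ hz (Or.inl ⟨v, hv, hv4, three_of (dpt_card hz) hv4 hv3⟩)
    · exact alt_of φ hz (Or.inr ⟨y, y', h1, h2, h3, h4, h6, h7⟩)

/-! ### the symmetric form -/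

/-- the planar form of the alternative, symmetric in the first case -/
def AltM (F : Fin 6 → Set (EuclideanSpace ℝ (Fin 2))) : Prop :=
  ∃ z a b c d, [a, b, c, d].Nodup ∧ (∀ j, z ∈ F j ↔ j ∈ [a, b, c, d]) ∧
    {p | dist p z = 1 ∧ ∃ r > 0, ∀ y, dist y z = 1 → dist y p < r →
      {j | y ∈ F j} = {a, b}}.Nonempty ∧
    {p | dist p z = 1 ∧ ∃ r > 0, ∀ y, dist y z = 1 → dist y p < r →
      {j | y ∈ F j} = {c, d}}.Nonempty ∧
    ((∃ v, {j | v ∈ F j}.ncard = 4 ∧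
      v ∈ closure {p | dist p z = 1 ∧ ∃ r > 0, ∀ y, dist y z = 1 → dist y p < r →
        {j | y ∈ F j} = {a, b}} ∧
      z ∈ closure {p | dist p v = 1 ∧ ∃ r > 0, ∀ y, dist y v = 1 → dist y p < r →
        {j | y ∈ F j} = {a, c}}) ∨
    ∃ v v', dist v z = 1 ∧ dist v' z = 1 ∧ dist v v' = 1 ∧ {j | v ∈ F j}.ncard = 4 ∧
      ∀ j, z ∉ F j → v ∈ F j ∧ v' ∈ F j)

theorem exE_nonempty (φ : ℂ ≃ₗᵢ[ℝ] EuclideanSpace ℝ (Fin 2)) {z : ℂ} {a b : Fin 6}
    (h : ∃ p, Arc T z p {a, b}) :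
    {p | dist p (φ z) = 1 ∧ ∃ r > 0, ∀ y, dist y (φ z) = 1 → dist y p < r →
      {j | y ∈ {x : EuclideanSpace ℝ (Fin 2) | j ∈ T (φ.symm x)}} = {a, b}}.Nonempty := by
  obtain ⟨p, hp⟩ := h
  have h1 : p ∈ closure {y | dist y z = 1 ∧ ∀ᶠ q in 𝓝[sphere z 1] y, T q = {a, b}} :=
    subset_closure ⟨hp.1, hp.2⟩
  exact closure_nonempty_iff.1 ⟨_, ex_cl φ h1⟩

/-- **The symmetric form with both frames** -/
theorem dfinM (hX : ∀ U T, MapC U T → (∀ z, (T z).ncard ≤ 5) →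
      ∀ z v, dist z v = 1 → (T z).ncard = 5 → 4 ≤ (T v).ncard → False)
    (hF : ∀ U T T', MapPr U T T' →
      (∀ z v, dist z v = 1 → (T' z).ncard = 5 → 4 ≤ (T' v).ncard → False) →
      (∃ z a b c d v, DPt T z a b c d ∧
        v ∈ closure {y | dist y z = 1 ∧ ∀ᶠ q in 𝓝[sphere z 1] y, T q = {a, b}} ∧
        z ∈ closure {y | dist y v = 1 ∧ ∀ᶠ q in 𝓝[sphere v 1] y, T q = {a, c}} ∧
        (T v).ncard = 4) ∨
      ∃ z a b c d y y', DPt T z a b c d ∧ dist y z = 1 ∧ dist y' z = 1 ∧ dist y y' = 1 ∧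
        (T z)ᶜ ⊆ T y ∧ (T z)ᶜ ⊆ T y' ∧ (T y).ncard = 4)
    (h : PlMap g G) (c : κ → Fin 6)
    (hc : ∀ f f', c f = c f' → ∀ x ∈ G f, ∀ y ∈ G f', dist x y ≠ 1) :
    ∃ U F : Fin 6 → Set (EuclideanSpace ℝ (Fin 2)), Sts G c U F ∧
      (∀ x y, dist x y = 1 → 4 ≤ {j | x ∈ F j}.ncard → {j | y ∈ F j}.ncard ≤ 4) ∧ AltM F := by
  obtain ⟨φ, U, T, T', hU, hG⟩ := exists_prU h c hc
  have hX' := hX U T' hU.cn hU.le'
  refine ⟨_, _, exists_sts' hU.fr.irr hU.fr.lf hU.fr.ct hU.le φ hG, fun x y hxy hx => ?_, ?_⟩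
  · by_contra hcon
    push Not at hcon
    have h5 := hU.le (φ.symm y)
    exact hU.noX hX' (φ.symm y) (φ.symm x)
      (by rw [dist_comm, φ.symm.dist_map]; exact hxy) (le_antisymm h5 hcon) hx
  · rcases hF U T T' hU hX' with ⟨z, a, b, c', d, v, hz, hv, hv', hv4⟩ |
      ⟨z, a, b, c', d, y, y', hz, h1, h2, h3, h6, h7, h4⟩
    · exact ⟨φ z, a, b, c', d, (dpt_form hz φ).1, (dpt_form hz φ).2, exE_nonempty φ hz.arc1,
        exE_nonempty φ hz.arc2,
        Or.inl ⟨φ v, (card_phi φ v).trans hv4, ex_cl φ hv, ex_cl φ hv'⟩⟩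
    · refine ⟨φ z, _, _, _, _, (dpt_form hz φ).1, (dpt_form hz φ).2, exE_nonempty φ hz.arc1,
        exE_nonempty φ hz.arc2, Or.inr ⟨φ y, φ y', by rw [φ.dist_map]; exact h1,
        by rw [φ.dist_map]; exact h2, by rw [φ.dist_map]; exact h3, (card_phi φ y).trans h4,
        fun j hj => ?_⟩⟩
      have hj' : j ∈ (T z)ᶜ := by
        intro h8
        apply hj
        show j ∈ T (φ.symm (φ z))
        rw [φ.symm_apply_apply]
        exact h8
      constructor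
      · show j ∈ T (φ.symm (φ y))
        rw [φ.symm_apply_apply]
        exact h6 hj'
      · show j ∈ T (φ.symm (φ y'))
        rw [φ.symm_apply_apply]
        exact h7 hj'

end Vale.Agent.P032.H763
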