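import Vale.Agent.P032X.H763.DPair
import Vale.Agent.P032X.H355.ZK

/-!
# P032: the minimal frame of a six-coloured planar map in the Euclidean plane

`exists_sts'`: the six open and the six closed sets of a frame.
`ex_cl`: points in the closure of the set of the exact arcs `Ex T z P`.
`exists_min`: if no connected frame has a point with at least four colours at distance one from a
five-coloured point, a six-coloured planar map has a minimal frame with at most five colours at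
every point and at most four at the points at distance one from a point with at least four.
-/

open Set Filter Topology Metric

noncomputable section

namespace Vale.Agent.P032.H763

open Vale.Agent.P032.Six Vale.Agent.P032.H355

variable {U : Fin 6 → Set ℂ} {T : ℂ → Set (Fin 6)}

variable {ι κ : Type*} {g : ι → ℝ → EuclideanSpace ℝ (Fin 2)}
    {G : κ → Set (EuclideanSpace ℝ (Fin 2))}

theorem exists_sts' (hI : Irr U T) (hl : LF3 U T) (hct : ∀ x, ∀ i ∈ T x, Cn U x i)
    (h5 : ∀ x, (T x).ncard ≤ 5) {c : κ → Fin 6} (φ : ℂ ≃ₗᵢ[ℝ] EuclideanSpace ℝ (Fin 2))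
    (hG : ∀ f, ∀ x ∈ G f, φ.symm x ∈ U (c f)) :
    Sts G c (fun i => φ.symm ⁻¹' U i) (fun i => {x | i ∈ T (φ.symm x)}) := by
  have hcl : ∀ S : Set ℂ, closure (φ.symm ⁻¹' S) = φ.symm ⁻¹' closure S := fun S =>
    (φ.symm.toHomeomorph.preimage_closure S).symm
  refine ⟨fun i => (hI.mx.isOpen i).preimage φ.symm.continuous, fun i x hx y hy => ?_,
    fun f x hx => hG f x hx, ?_, fun i x hx hy => ?_, ?_, fun i x hx => ?_, fun i j x hx => ?_,
    fun i => ?_, fun i x hx => ?_, fun x => ?_, fun x => h5 (φ.symm x)⟩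
  · rw [← φ.symm.dist_map]
    exact hI.mx.free i _ hx _ (subset_closure hy)
  · have h1 := hI.mx.dense
    rw [dense_iff_closure_eq] at h1 ⊢
    rw [← preimage_iUnion, hcl, h1, preimage_univ]
  · refine hI.max i (φ.symm x) ?_ fun y hy' => ?_
    · rcases hx with hx | hx
      · left
        obtain ⟨j, hj⟩ := mem_iUnion.1 hx
        exact fun hc => hc j hj
      · exact Or.inr hx
    · have h1 : φ y ∈ closure (φ.symm ⁻¹' U i) := by
        rw [hcl]
        simpa using hy'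
      have h2 := hy (φ y) h1
      rw [← φ.dist_map, φ.apply_symm_apply]
      exact h2
  · rw [eq_univ_iff_forall]
    intro x
    obtain ⟨i, hi⟩ := hI.ne (φ.symm x)
    exact mem_iUnion.2 ⟨i, hi⟩
  · show x ∈ closure (φ.symm ⁻¹' U i)
    rw [hcl]
    exact hI.sub _ hx
  · exact hI.off (φ.symm x) (fun hc => hc j hx.2) i hx.1
  · have h1 : {x : EuclideanSpace ℝ (Fin 2) | ∀ j, x ∈ {x | j ∈ T (φ.symm x)} ↔ j = i} =
        φ.symm ⁻¹' {w | T w = {i}} := by
      ext x
      simp only [mem_ofPred_eq, mem_preimage, Set.ext_iff, mem_singleton_iff]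
    rw [h1, hcl]
    ext x
    constructor
    · intro hx
      exact mem_closure_iff_frequently.2 (hI.pure _ i hx)
    · intro hx
      refine (hI.closed i).closure_subset_iff.2 (fun w hw => ?_) hx
      show i ∈ T w
      rw [hw]
      rfl
  · obtain ⟨Q, h1, h2, h3, w, h4, h5⟩ := hct (φ.symm x) i hx
    refine ⟨φ '' Q, ?_, h2.image _ φ.continuous.continuousOn, ⟨_, h3, φ.apply_symm_apply x⟩,
      φ w, mem_image_of_mem _ h4, by simpa using h5⟩
    rintro _ ⟨y, hy, rfl⟩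
    rw [hcl]
    simpa using h1 hy
  · obtain ⟨t, ht, hf⟩ := hl (φ.symm x)
    refine ⟨φ.symm ⁻¹' t, φ.symm.continuous.continuousAt.preimage_mem_nhds ht, ?_⟩
    refine (hf.preimage φ.symm.injective.injOn).subset ?_
    rintro y ⟨⟨h1, h2⟩, h3⟩
    exact ⟨⟨h1, h2⟩, h3⟩

/-- the minimal frame -/
theorem exists_min (hX : ∀ U T, MapC U T → (∀ z, (T z).ncard ≤ 5) →
      ∀ z v, dist z v = 1 → (T z).ncard = 5 → 4 ≤ (T v).ncard → False)
    (h : PlMap g G) (c : κ → Fin 6)
    (hc : ∀ f f', c f = c f' → ∀ x ∈ G f, ∀ y ∈ G f', dist x y ≠ 1) :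
    ∃ φ : ℂ ≃ₗᵢ[ℝ] EuclideanSpace ℝ (Fin 2), ∃ U T, MapFr U T ∧ (∀ z, (T z).ncard ≤ 5) ∧
      (∀ x y, dist x y = 1 → 4 ≤ (T x).ncard → (T y).ncard ≤ 4) ∧
      Sts G c (fun i => φ.symm ⁻¹' U i) (fun i => {x | i ∈ T (φ.symm x)}) := by
  obtain ⟨φ, U, T, T', hU, hG⟩ := exists_prU h c hc
  refine ⟨φ, U, T, hU.fr, hU.le, fun x y hxy hx => ?_,
    exists_sts' hU.fr.irr hU.fr.lf hU.fr.ct hU.le φ hG⟩
  by_contra hcon
  push Not at hcon
  have h5 := hU.le y
  exact hU.noX (hX U T' hU.cn hU.le') y x (by rw [dist_comm]; exact hxy) (by omega) hx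

/-- the palette of a point in the Euclidean plane -/
theorem pal_phi (φ : ℂ ≃ₗᵢ[ℝ] EuclideanSpace ℝ (Fin 2)) (v : ℂ) :
    {j | φ v ∈ {x : EuclideanSpace ℝ (Fin 2) | j ∈ T (φ.symm x)}} = T v := by
  show T (φ.symm (φ v)) = _
  rw [φ.symm_apply_apply]

/-- the points of exact arcs in the Euclidean plane -/
theorem ex_cl (φ : ℂ ≃ₗᵢ[ℝ] EuclideanSpace ℝ (Fin 2)) {z v : ℂ} {P : Set (Fin 6)}
    (h : v ∈ closure {y | dist y z = 1 ∧ ∀ᶠ q in 𝓝[sphere z 1] y, T q = P}) :
    φ v ∈ closure {y : EuclideanSpace ℝ (Fin 2) | dist y (φ z) = 1 ∧ ∃ r > 0,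
      ∀ w, dist w (φ z) = 1 → dist w y < r →
        {j | w ∈ {x : EuclideanSpace ℝ (Fin 2) | j ∈ T (φ.symm x)}} = P} := by
  have h1 := image_closure_subset_closure_image φ.continuous ⟨v, h, rfl⟩
  refine closure_mono ?_ h1
  rintro _ ⟨y, ⟨h2, h3⟩, rfl⟩
  rw [eventually_nhdsWithin_iff, Metric.eventually_nhds_iff] at h3
  obtain ⟨r, hr, hb⟩ := h3
  refine ⟨by rw [φ.dist_map]; exact h2, r, hr, fun w hw hwy => ?_⟩
  refine hb (y := φ.symm w) ?_ ?_
  · rw [← φ.dist_map, φ.apply_symm_apply]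
    exact hwy
  · rw [mem_sphere, ← φ.dist_map, φ.apply_symm_apply]
    exact hw

end Vale.Agent.P032.H763
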