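import Vale.Agent.P032X.H355.Hx

/-!
# P032: a two-pair point at distance one from a point with at least four colours

`dpair_of`: for the two frames of a six-coloured planar map there is a connected frame with the
same open sets which has a two-pair point `z` and a point `v` with at least four colours at distance
one, if no connected frame has two five-coloured points at distance one (block X1) and no connected
frame without two-pair points at distance one from a five-coloured point has a point with at least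
four colours at distance one from a five-coloured point (block X3).  No block about two-pair points
is needed.
`dpair`: the form for planar maps, with six open sets which contain the faces and six closed sets.
`dpair4`: the stronger form, if no connected frame has a point with at least four colours at distance
one from a five-coloured point.
-/

open Set Filter Topology Metric

noncomputable section

namespace Vale.Agent.P032.H763

open Vale.Agent.P032.Six Vale.Agent.P032.H61 Vale.Agent.P032.BlkE Vale.Agent.P032.H355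

variable {U : Fin 6 → Set ℂ} {T T' : ℂ → Set (Fin 6)}

/-- two disjoint pairs on the unit circle about a point with at most four colours: a two-pair point -/
theorem dpt_of (h : Irr U T) {z p q : ℂ} (hz : (T z).ncard ≤ 4) (hp : dist p z = 1)
    (hq : dist q z = 1) (hpz : T p ⊆ T z) (hqz : T q ⊆ T z) (hp2 : (T p).ncard = 2)
    (hq2 : (T q).ncard = 2) (hd : Disjoint (T p) (T q)) : ∃ a b c d, DPt T z a b c d := by
  obtain ⟨a, b, hab, hTp⟩ := Set.ncard_eq_two.1 hp2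
  obtain ⟨c, d, hcd, hTq⟩ := Set.ncard_eq_two.1 hq2
  have hu : T p ∪ T q = T z := by
    refine Set.eq_of_subset_of_ncard_le (union_subset hpz hqz) ?_ (Set.toFinite _)
    rw [Set.ncard_union_eq hd (Set.toFinite _) (Set.toFinite _)]
    omega
  have hpA := h.near_exact (z := z) (y := p) hp2.le hpz
  have hqA := h.near_exact (z := z) (y := q) hq2.le hqz
  rw [hTp] at hpA
  rw [hTq] at hqA
  rw [hTp, hTq] at hd hu
  rw [Set.disjoint_left] at hd
  refine ⟨a, b, c, d, ?_, ?_, ?_, ?_, ?_, hab, hcd, ⟨p, hp, hpA⟩, ⟨q, hq, hqA⟩⟩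
  · rw [← hu]
    ext i
    simp only [mem_union, mem_insert_iff, mem_singleton_iff]
    tauto
  · rintro rfl
    exact hd (Or.inl rfl) (Or.inl rfl)
  · rintro rfl
    exact hd (Or.inl rfl) (Or.inr rfl)
  · rintro rfl
    exact hd (Or.inr rfl) (Or.inl rfl)
  · rintro rfl
    exact hd (Or.inr rfl) (Or.inr rfl)

/-- **The pair of a six-coloured planar map has a two-pair point.** -/
theorem dpair_of {NW TC : ℕ} (h55 : ∀ U T, MapC U T → (∀ z, (T z).ncard ≤ 5) → N55 T)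
    (hX3 : Dead (kap TC) (CW (fun T => N55 T ∧ ND5 T) 5 4 NW TC) [])
    (h : MapPr U T T') : ∃ T₁, MapC U T₁ ∧
      ∃ z v a b c d, dist z v = 1 ∧ DPt T₁ z a b c d ∧ 4 ≤ (T₁ v).ncard := by
  obtain ⟨T₂, h2, he, hn⟩ := h.cn.exists_soft
  have h5' : ∀ y, (T₂ y).ncard ≤ 5 := fun y => fix_le h2.irr he (by norm_num) h.le' y
  by_cases hnd : ND5 T₂
  · have h1 := n54_of_dead hX3 h2.irr h2.lf h2.ctn' hn h5' (h55 U T₂ h2 h5') hnd
    obtain ⟨z, v, hzv, hv, hz⟩ := h.exists_pairC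
    rcases hz with hz | ⟨⟨a, b, c, d, hz⟩, hv4⟩
    · exfalso
      refine h1 z v hzv ?_ ?_
      · rw [he z (Irr_four_mem h.cn.irr (by omega))]
        exact hz.ge
      · rw [he v (Irr_four_mem h.cn.irr hv)]
        exact hv
    · exact ⟨T', h.cn, z, v, a, b, c, d, hzv, hz, hv⟩
  · unfold ND5 at hnd
    simp only [not_forall] at hnd
    obtain ⟨x, y, hxy, hx, hy, p, q, hp, hq, hpy, hqy, hp2, hq2, hd, -⟩ := hnd
    obtain ⟨a, b, c, d, hD⟩ := dpt_of h2.irr hy hp hq hpy hqy hp2 hq2 hd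
    exact ⟨T₂, h2, y, x, a, b, c, d, by rw [dist_comm]; exact hxy, hD, by omega⟩

/-! ### the sets in the plane -/

variable {ι κ : Type*} {g : ι → ℝ → EuclideanSpace ℝ (Fin 2)}
    {G : κ → Set (EuclideanSpace ℝ (Fin 2))}

/-- the two frames of a six-coloured planar map, with the faces in the open sets -/
theorem exists_prU (h : PlMap g G) (c : κ → Fin 6)
    (hc : ∀ f f', c f = c f' → ∀ x ∈ G f, ∀ y ∈ G f', dist x y ≠ 1) :
    ∃ φ : ℂ ≃ₗᵢ[ℝ] EuclideanSpace ℝ (Fin 2), ∃ U T T', MapPr U T T' ∧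
      ∀ f, ∀ x ∈ G f, φ.symm x ∈ U (c f) := by
  let φ : ℂ ≃ₗᵢ[ℝ] EuclideanSpace ℝ (Fin 2) := Complex.orthonormalBasisOneI.repr
  obtain ⟨U, T, T', ⟨h1, h2, h0, h3, h4⟩, ⟨h5, h6, h7⟩, h8, h9, h10, h11⟩ :=
    (h.toPMap φ).exists_frame c (fun f f' hff x hx y hy => by
      rw [← φ.dist_map]
      exact hc f f' hff _ hx _ hy) Cf_finite
  refine ⟨φ, U, T, T', ⟨⟨h1, h2, h3, h4⟩, ⟨h5, h6, h7⟩, h8,
    fun z => le_five (U := U) (T := T') ⟨h5, h6, h7⟩ z, h9, h10, h11⟩, fun f x hx => ?_⟩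
  exact h0 (c f) (mem_colV.2 ⟨f, rfl, by simpa using hx⟩)

/-- the six open and the six closed sets of a connected frame, in the Euclidean plane -/
structure Sts (G : κ → Set (EuclideanSpace ℝ (Fin 2))) (c : κ → Fin 6)
    (U F : Fin 6 → Set (EuclideanSpace ℝ (Fin 2))) : Prop where
  isOpen : ∀ i, IsOpen (U i)
  free : ∀ i, ∀ x ∈ U i, ∀ y ∈ U i, dist x y ≠ 1
  faces : ∀ f, G f ⊆ U (c f)
  dense : Dense (⋃ i, U i)
  max : ∀ i, ∀ x, x ∈ ⋃ j, U j ∨ x ∈ F i → (∀ y ∈ closure (U i), dist x y ≠ 1) → x ∈ U i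
  cover : (⋃ i, F i) = univ
  sub : ∀ i, F i ⊆ closure (U i)
  off : ∀ i j, F i ∩ U j ⊆ U i
  pure : ∀ i, F i = closure {x | ∀ j, x ∈ F j ↔ j = i}
  conn : ∀ i, ∀ x ∈ F i, ∃ Q ⊆ closure (U i), IsPreconnected Q ∧ x ∈ Q ∧ (Q ∩ U i).Nonempty
  lf : ∀ x, ∃ t ∈ 𝓝 x, ({y | (∀ i, y ∉ U i) ∧ 3 ≤ {j | y ∈ F j}.ncard} ∩ t).Finite
  five : ∀ x, {j | x ∈ F j}.ncard ≤ 5

theorem exists_sts (hU : MapC U T) {c : κ → Fin 6} (φ : ℂ ≃ₗᵢ[ℝ] EuclideanSpace ℝ (Fin 2))
    (hG : ∀ f, ∀ x ∈ G f, φ.symm x ∈ U (c f)) :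
    Sts G c (fun i => φ.symm ⁻¹' U i) (fun i => {x | i ∈ T (φ.symm x)}) := by
  have hcl : ∀ S : Set ℂ, closure (φ.symm ⁻¹' S) = φ.symm ⁻¹' closure S := fun S =>
    (φ.symm.toHomeomorph.preimage_closure S).symm
  have hI := hU.irr
  refine ⟨fun i => (hI.mx.isOpen i).preimage φ.symm.continuous, fun i x hx y hy => ?_,
    fun f x hx => hG f x hx, ?_, fun i x hx hy => ?_, ?_, fun i x hx => ?_, fun i j x hx => ?_,
    fun i => ?_, fun i x hx => ?_, fun x => ?_, fun x => le_five hU (φ.symm x)⟩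
  · rw [← φ.symm.dist_map]
    exact hI.mx.free i _ hx _ (subset_closure hy)
  · have h1 := hI.mx.dense
    rw [dense_iff_closure_eq] at h1 ⊢
    rw [← preimage_iUnion, hcl, h1, preimage_univ]
  · refine hI.max i (φ.symm x) ?_ fun y hy' => ?_
    · rcases hx with hx | hx
      · left
        obtain ⟨j, hj⟩ := mem_iUnion.1 hx
        exact fun hc => hc j hj
      · exact Or.inr hx
    · have h1 : φ y ∈ closure (φ.symm ⁻¹' U i) := by
        rw [hcl]
        simpa using hy'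
      have h2 := hy (φ y) h1
      rw [← φ.dist_map, φ.apply_symm_apply]
      exact h2
  · rw [eq_univ_iff_forall]
    intro x
    obtain ⟨i, hi⟩ := hI.ne (φ.symm x)
    exact mem_iUnion.2 ⟨i, hi⟩
  · show x ∈ closure (φ.symm ⁻¹' U i)
    rw [hcl]
    exact hI.sub _ hx
  · exact hI.off (φ.symm x) (fun hc => hc j hx.2) i hx.1
  · have h1 : {x : EuclideanSpace ℝ (Fin 2) | ∀ j, x ∈ {x | j ∈ T (φ.symm x)} ↔ j = i} =
        φ.symm ⁻¹' {w | T w = {i}} := by
      ext x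
      simp only [mem_ofPred_eq, mem_preimage, Set.ext_iff, mem_singleton_iff]
    rw [h1, hcl]
    ext x
    constructor
    · intro hx
      exact mem_closure_iff_frequently.2 (hI.pure _ i hx)
    · intro hx
      refine (hI.closed i).closure_subset_iff.2 (fun w hw => ?_) hx
      show i ∈ T w
      rw [hw]
      rfl
  · obtain ⟨Q, h1, h2, h3, w, h4, h5⟩ := hU.ct (φ.symm x) i hx
    refine ⟨φ '' Q, ?_, h2.image _ φ.continuous.continuousOn, ⟨_, h3, φ.apply_symm_apply x⟩,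
      φ w, mem_image_of_mem _ h4, by simpa using h5⟩
    rintro _ ⟨y, hy, rfl⟩
    rw [hcl]
    simpa using h1 hy
  · obtain ⟨t, ht, hf⟩ := hU.lf (φ.symm x)
    refine ⟨φ.symm ⁻¹' t, φ.symm.continuous.continuousAt.preimage_mem_nhds ht, ?_⟩
    refine (hf.preimage φ.symm.injective.injOn).subset ?_
    rintro y ⟨⟨h1, h2⟩, h3⟩
    exact ⟨⟨h1, h2⟩, h3⟩

/-- an arc in the form with a radius -/
theorem arc_rad {z p : ℂ} {a b : Fin 6} (h : Arc T z p {a, b})
    (φ : ℂ ≃ₗᵢ[ℝ] EuclideanSpace ℝ (Fin 2)) :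
    ∃ p, dist p (φ z) = 1 ∧ ∃ r > 0, ∀ y, dist y (φ z) = 1 → dist y p < r →
      ∀ j, y ∈ {x : EuclideanSpace ℝ (Fin 2) | j ∈ T (φ.symm x)} ↔ j = a ∨ j = b := by
  obtain ⟨h1, h2⟩ := h
  rw [eventually_nhdsWithin_iff, Metric.eventually_nhds_iff] at h2
  obtain ⟨r, hr, hb⟩ := h2
  refine ⟨φ p, by rw [φ.dist_map]; exact h1, r, hr, fun y hy hyp j => ?_⟩
  have h3 : dist (φ.symm y) p < r := by
    rw [← φ.dist_map, φ.apply_symm_apply]
    exact hyp
  have h4 : φ.symm y ∈ sphere z 1 := by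
    rw [mem_sphere, ← φ.dist_map, φ.apply_symm_apply]
    exact hy
  rw [mem_ofPred_eq, hb h3 h4]
  exact Iff.rfl

/-- the centre of a two-pair point -/
theorem dpt_form {z : ℂ} {a b c d : Fin 6} (hz : DPt T z a b c d)
    (φ : ℂ ≃ₗᵢ[ℝ] EuclideanSpace ℝ (Fin 2)) : [a, b, c, d].Nodup ∧
      ∀ j, φ z ∈ {x : EuclideanSpace ℝ (Fin 2) | j ∈ T (φ.symm x)} ↔ j ∈ [a, b, c, d] := by
  constructor
  · have e1 := hz.ab; have e2 := hz.ac; have e3 := hz.ad; have e4 := hz.bc; have e5 := hz.bd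
    have e6 := hz.cd
    simp [e1, e2, e3, e4, e5, e6]
  · intro j
    simp only [mem_ofPred_eq, φ.symm_apply_apply, hz.pal]
    simp

theorem card_phi (φ : ℂ ≃ₗᵢ[ℝ] EuclideanSpace ℝ (Fin 2)) (v : ℂ) :
    {j | φ v ∈ {x : EuclideanSpace ℝ (Fin 2) | j ∈ T (φ.symm x)}}.ncard = (T v).ncard := by
  show (T (φ.symm (φ v))).ncard = _
  rw [φ.symm_apply_apply]

/-- **Every six-coloured planar map has a two-pair point at distance one from a point with at least
four colours**, from the blocks X1 and X3 -/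
theorem dpair {NW TC : ℕ} (h55 : ∀ U T, MapC U T → (∀ z, (T z).ncard ≤ 5) → N55 T)
    (hX3 : Dead (kap TC) (CW (fun T => N55 T ∧ ND5 T) 5 4 NW TC) [])
    (h : PlMap g G) (c : κ → Fin 6)
    (hc : ∀ f f', c f = c f' → ∀ x ∈ G f, ∀ y ∈ G f', dist x y ≠ 1) :
    ∃ U F : Fin 6 → Set (EuclideanSpace ℝ (Fin 2)), Sts G c U F ∧
      (∀ x y, dist x y = 1 → 5 ≤ {j | x ∈ F j}.ncard → {j | y ∈ F j}.ncard ≤ 4) ∧
      ∃ z v, dist z v = 1 ∧ 4 ≤ {j | v ∈ F j}.ncard ∧
        ∃ a b c d, [a, b, c, d].Nodup ∧ (∀ j, z ∈ F j ↔ j ∈ [a, b, c, d]) ∧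
          (∃ p, dist p z = 1 ∧ ∃ r > 0, ∀ y, dist y z = 1 → dist y p < r →
            ∀ j, y ∈ F j ↔ j = a ∨ j = b) ∧
          ∃ p, dist p z = 1 ∧ ∃ r > 0, ∀ y, dist y z = 1 → dist y p < r →
            ∀ j, y ∈ F j ↔ j = c ∨ j = d := by
  obtain ⟨φ, U, T, T', hU, hG⟩ := exists_prU h c hc
  obtain ⟨T₁, h1, z, v, a, b, c', d, hzv, hz, hv⟩ := dpair_of h55 hX3 hU
  refine ⟨_, _, exists_sts h1 φ hG, fun x y hxy hx => ?_, φ z, φ v,
    by rw [φ.dist_map]; exact hzv, (card_phi φ v).symm ▸ hv,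
    a, b, c', d, (dpt_form hz φ).1, (dpt_form hz φ).2, ?_, ?_⟩
  · by_contra hcon
    push Not at hcon
    exact h55 U T₁ h1 (le_five h1) (φ.symm x) (φ.symm y) (by rw [φ.symm.dist_map]; exact hxy) hx hcon
  · obtain ⟨p, hp⟩ := hz.arc1
    exact arc_rad hp φ
  · obtain ⟨p, hp⟩ := hz.arc2
    exact arc_rad hp φ

/-- **The stronger form** : no point with at least four colours at distance one from a five-coloured
point, and a two-pair point at distance one from a four-coloured point; the exact pairs on the unit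
circle about the two-pair point are its two pairs, those on the unit circle about the other point are
equal or disjoint -/
theorem dpair4 (hX : ∀ U T, MapC U T → (∀ z, (T z).ncard ≤ 5) →
      ∀ z v, dist z v = 1 → (T z).ncard = 5 → 4 ≤ (T v).ncard → False)
    (h : PlMap g G) (c : κ → Fin 6)
    (hc : ∀ f f', c f = c f' → ∀ x ∈ G f, ∀ y ∈ G f', dist x y ≠ 1) :
    ∃ U F : Fin 6 → Set (EuclideanSpace ℝ (Fin 2)), Sts G c U F ∧
      (∀ x y, dist x y = 1 → 5 ≤ {j | x ∈ F j}.ncard → {j | y ∈ F j}.ncard ≤ 3) ∧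
      ∃ z v, dist z v = 1 ∧ {j | v ∈ F j}.ncard = 4 ∧
        (∀ p q, dist p v = 1 → dist q v = 1 → {j | p ∈ F j}.ncard = 2 →
          {j | q ∈ F j}.ncard = 2 → {j | p ∈ F j} ⊆ {j | v ∈ F j} →
          {j | q ∈ F j} ⊆ {j | v ∈ F j} → {j | p ∈ F j} = {j | q ∈ F j} ∨
            Disjoint {j | p ∈ F j} {j | q ∈ F j}) ∧
        ∃ a b c d, [a, b, c, d].Nodup ∧ (∀ j, z ∈ F j ↔ j ∈ [a, b, c, d]) ∧
          (∀ p, dist p z = 1 → {j | p ∈ F j}.ncard = 2 → {j | p ∈ F j} ⊆ {j | z ∈ F j} →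
            {j | p ∈ F j} = {a, b} ∨ {j | p ∈ F j} = {c, d}) ∧
          (∃ p, dist p z = 1 ∧ ∃ r > 0, ∀ y, dist y z = 1 → dist y p < r →
            ∀ j, y ∈ F j ↔ j = a ∨ j = b) ∧
          ∃ p, dist p z = 1 ∧ ∃ r > 0, ∀ y, dist y z = 1 → dist y p < r →
            ∀ j, y ∈ F j ↔ j = c ∨ j = d := by
  obtain ⟨φ, U, T, T', hU, hG⟩ := exists_prU h c hc
  obtain ⟨z, v, hzv, hv, hz⟩ := hU.exists_pairZ
  have hX' := hX U T' hU.cn hU.le'
  rcases hz with hz | ⟨⟨a, b, c', d, hz, ho⟩, hv4, hpd⟩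
  · exact (hX' z v hzv hz hv).elim
  have hdist : ∀ x w, dist x (φ w) = 1 → dist (φ.symm x) w = 1 := fun x w hx => by
    rw [← φ.dist_map, φ.apply_symm_apply]
    exact hx
  have hset : ∀ w, {j | φ w ∈ {x : EuclideanSpace ℝ (Fin 2) | j ∈ T' (φ.symm x)}} = T' w :=
    fun w => by
      show T' (φ.symm (φ w)) = _
      rw [φ.symm_apply_apply]
  refine ⟨_, _, exists_sts hU.cn φ hG, fun x y hxy hx => ?_, φ z, φ v,
    by rw [φ.dist_map]; exact hzv, (card_phi φ v).trans hv4, fun p q hp hq hp2 hq2 hps hqs => ?_,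
    a, b, c', d, (dpt_form hz φ).1, (dpt_form hz φ).2, fun p hp hp2 hps => ?_, ?_, ?_⟩
  · by_contra hcon
    push Not at hcon
    exact hX' (φ.symm x) (φ.symm y) (by rw [φ.symm.dist_map]; exact hxy)
      (le_antisymm (hU.le' _) hx) hcon
  · rw [hset] at hps hqs
    exact hpd (φ.symm p) (φ.symm q) (hdist p v hp) (hdist q v hq) hp2 hq2 hps hqs
  · rw [hset] at hps
    exact ho (φ.symm p) (hdist p z hp) hp2 hps
  · obtain ⟨p, hp⟩ := hz.arc1
    exact arc_rad hp φ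
  · obtain ⟨p, hp⟩ := hz.arc2
    exact arc_rad hp φ

end Vale.Agent.P032.H763
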