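import Vale.Agent.P032X.H763.DFin

/-!
# P032: the form of the planar theorem from the blocks X1 and X3

`dfinX3`: a six-coloured planar map has the special point of `AltM` or a two-pair point at distance
one from a five-coloured point.
-/

open Set Filter Topology Metric

noncomputable section

namespace Vale.Agent.P032.H763

open Vale.Agent.P032.Six Vale.Agent.P032.H61 Vale.Agent.P032.BlkE Vale.Agent.P032.H355

variable {κ ι : Type*} {g : ι → ℝ → EuclideanSpace ℝ (Fin 2)}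
    {G : κ → Set (EuclideanSpace ℝ (Fin 2))} {T : ℂ → Set (Fin 6)}

/-- from the alternative in the complex plane to the planar form -/
theorem altM_of (φ : ℂ ≃ₗᵢ[ℝ] EuclideanSpace ℝ (Fin 2))
    (hF : (∃ z a b c d v, DPt T z a b c d ∧
        v ∈ closure {y | dist y z = 1 ∧ ∀ᶠ q in 𝓝[sphere z 1] y, T q = {a, b}} ∧
        z ∈ closure {y | dist y v = 1 ∧ ∀ᶠ q in 𝓝[sphere v 1] y, T q = {a, c}} ∧
        (T v).ncard = 4) ∨
      ∃ z a b c d y y', DPt T z a b c d ∧ dist y z = 1 ∧ dist y' z = 1 ∧ dist y y' = 1 ∧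
        (T z)ᶜ ⊆ T y ∧ (T z)ᶜ ⊆ T y' ∧ (T y).ncard = 4) :
    AltM fun i => {x | i ∈ T (φ.symm x)} := by
  rcases hF with ⟨z, a, b, c', d, v, hz, hv, hv', hv4⟩ |
      ⟨z, a, b, c', d, y, y', hz, h1, h2, h3, h6, h7, h4⟩
  · exact ⟨φ z, a, b, c', d, (dpt_form hz φ).1, (dpt_form hz φ).2, exE_nonempty φ hz.arc1,
      exE_nonempty φ hz.arc2,
      Or.inl ⟨φ v, (card_phi φ v).trans hv4, ex_cl φ hv, ex_cl φ hv'⟩⟩
  · refine ⟨φ z, _, _, _, _, (dpt_form hz φ).1, (dpt_form hz φ).2, exE_nonempty φ hz.arc1,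
      exE_nonempty φ hz.arc2, Or.inr ⟨φ y, φ y', by rw [φ.dist_map]; exact h1,
      by rw [φ.dist_map]; exact h2, by rw [φ.dist_map]; exact h3, (card_phi φ y).trans h4,
      fun j hj => ?_⟩⟩
    have hj' : j ∈ (T z)ᶜ := by
      intro h8
      apply hj
      show j ∈ T (φ.symm (φ z))
      rw [φ.symm_apply_apply]
      exact h8
    constructor
    · show j ∈ T (φ.symm (φ y))
      rw [φ.symm_apply_apply]
      exact h6 hj'
    · show j ∈ T (φ.symm (φ y'))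
      rw [φ.symm_apply_apply]
      exact h7 hj'

/-- **From the blocks X1 and X3.** -/
theorem dfinX3 {NW TC : ℕ} (h55 : ∀ U T, MapC U T → (∀ z, (T z).ncard ≤ 5) → N55 T)
    (hX3 : Dead (kap TC) (CW (fun T => N55 T ∧ ND5 T) 5 4 NW TC) [])
    (hF : ∀ U T T', MapPr U T T' →
      (∀ z v, dist z v = 1 → (T' z).ncard = 5 → 4 ≤ (T' v).ncard → False) →
      (∃ z a b c d v, DPt T z a b c d ∧
        v ∈ closure {y | dist y z = 1 ∧ ∀ᶠ q in 𝓝[sphere z 1] y, T q = {a, b}} ∧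
        z ∈ closure {y | dist y v = 1 ∧ ∀ᶠ q in 𝓝[sphere v 1] y, T q = {a, c}} ∧
        (T v).ncard = 4) ∨
      ∃ z a b c d y y', DPt T z a b c d ∧ dist y z = 1 ∧ dist y' z = 1 ∧ dist y y' = 1 ∧
        (T z)ᶜ ⊆ T y ∧ (T z)ᶜ ⊆ T y' ∧ (T y).ncard = 4)
    (h : PlMap g G) (c : κ → Fin 6)
    (hc : ∀ f f', c f = c f' → ∀ x ∈ G f, ∀ y ∈ G f', dist x y ≠ 1) :
    ∃ U F : Fin 6 → Set (EuclideanSpace ℝ (Fin 2)), Sts G c U F ∧
      (∀ x y, dist x y = 1 → 5 ≤ {j | x ∈ F j}.ncard → {j | y ∈ F j}.ncard ≤ 4) ∧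
      (AltM F ∨ ∃ z v, dist z v = 1 ∧ {j | v ∈ F j}.ncard = 5 ∧
        ∃ a b c d, [a, b, c, d].Nodup ∧ (∀ j, z ∈ F j ↔ j ∈ [a, b, c, d]) ∧
          {p | dist p z = 1 ∧ ∃ r > 0, ∀ y, dist y z = 1 → dist y p < r →
            {j | y ∈ F j} = {a, b}}.Nonempty ∧
          {p | dist p z = 1 ∧ ∃ r > 0, ∀ y, dist y z = 1 → dist y p < r →
            {j | y ∈ F j} = {c, d}}.Nonempty) := by
  obtain ⟨φ, U, T, T', hU, hG⟩ := exists_prU h c hc
  by_cases hX : ∀ z v, dist z v = 1 → (T' z).ncard = 5 → 4 ≤ (T' v).ncard → False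
  · refine ⟨_, _, exists_sts' hU.fr.irr hU.fr.lf hU.fr.ct hU.le φ hG, fun x y hxy hx => ?_,
      Or.inl (altM_of φ (hF U T T' hU hX))⟩
    by_contra hcon
    push Not at hcon
    exact hU.noX hX (φ.symm x) (φ.symm y) (by rw [φ.symm.dist_map]; exact hxy)
      (le_antisymm (hU.le (φ.symm x)) hx) (le_trans (by norm_num) hcon)
  · simp only [not_forall] at hX
    obtain ⟨z, v, hzv, hz, hv, -⟩ := hX
    obtain ⟨T₂, h2, he, hn⟩ := hU.cn.exists_soft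
    have h5' : ∀ y, (T₂ y).ncard ≤ 5 := fun y => fix_le h2.irr he (by norm_num) hU.le' y
    have h55' := h55 U T₂ h2 h5'
    have hnd : ¬ ND5 T₂ := by
      intro hnd
      have h1 := n54_of_dead hX3 h2.irr h2.lf h2.ctn' hn h5' h55' hnd
      refine h1 z v hzv ?_ ?_
      · rw [he z (Irr_four_mem hU.cn.irr (by omega))]
        exact hz.ge
      · rw [he v (Irr_four_mem hU.cn.irr hv)]
        exact hv
    unfold ND5 at hnd
    simp only [not_forall] at hnd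
    obtain ⟨x, y, hxy, hx, hy, p, q, hp, hq, hpy, hqy, hp2, hq2, hd, -⟩ := hnd
    obtain ⟨a, b, c', d, hD⟩ := dpt_of h2.irr hy hp hq hpy hqy hp2 hq2 hd
    refine ⟨_, _, exists_sts h2 φ hG, fun x y hxy hx => ?_, Or.inr ⟨φ y, φ x,
      by rw [φ.dist_map, dist_comm]; exact hxy, (card_phi φ x).trans (le_antisymm (h5' x) hx),
      a, b, c', d, (dpt_form hD φ).1, (dpt_form hD φ).2, exE_nonempty φ hD.arc1,
      exE_nonempty φ hD.arc2⟩⟩
    by_contra hcon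
    push Not at hcon
    exact h55' (φ.symm x) (φ.symm y) (by rw [φ.symm.dist_map]; exact hxy) hx hcon

/-- the three cases in one form -/
def AltX (F : Fin 6 → Set (EuclideanSpace ℝ (Fin 2))) : Prop :=
  ∃ z a b c d, [a, b, c, d].Nodup ∧ (∀ j, z ∈ F j ↔ j ∈ [a, b, c, d]) ∧
    {p | dist p z = 1 ∧ ∃ r > 0, ∀ y, dist y z = 1 → dist y p < r →
      {j | y ∈ F j} = {a, b}}.Nonempty ∧
    {p | dist p z = 1 ∧ ∃ r > 0, ∀ y, dist y z = 1 → dist y p < r →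
      {j | y ∈ F j} = {c, d}}.Nonempty ∧
    ((∃ v, {j | v ∈ F j}.ncard = 4 ∧
      v ∈ closure {p | dist p z = 1 ∧ ∃ r > 0, ∀ y, dist y z = 1 → dist y p < r →
        {j | y ∈ F j} = {a, b}} ∧
      z ∈ closure {p | dist p v = 1 ∧ ∃ r > 0, ∀ y, dist y v = 1 → dist y p < r →
        {j | y ∈ F j} = {a, c}}) ∨
    (∃ v v', dist v z = 1 ∧ dist v' z = 1 ∧ dist v v' = 1 ∧ {j | v ∈ F j}.ncard = 4 ∧
      ∀ j, z ∉ F j → v ∈ F j ∧ v' ∈ F j) ∨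
    ∃ v, dist z v = 1 ∧ {j | v ∈ F j}.ncard = 5)

theorem dfinX3' {NW TC : ℕ} (h55 : ∀ U T, MapC U T → (∀ z, (T z).ncard ≤ 5) → N55 T)
    (hX3 : Dead (kap TC) (CW (fun T => N55 T ∧ ND5 T) 5 4 NW TC) [])
    (hF : ∀ U T T', MapPr U T T' →
      (∀ z v, dist z v = 1 → (T' z).ncard = 5 → 4 ≤ (T' v).ncard → False) →
      (∃ z a b c d v, DPt T z a b c d ∧
        v ∈ closure {y | dist y z = 1 ∧ ∀ᶠ q in 𝓝[sphere z 1] y, T q = {a, b}} ∧
        z ∈ closure {y | dist y v = 1 ∧ ∀ᶠ q in 𝓝[sphere v 1] y, T q = {a, c}} ∧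
        (T v).ncard = 4) ∨
      ∃ z a b c d y y', DPt T z a b c d ∧ dist y z = 1 ∧ dist y' z = 1 ∧ dist y y' = 1 ∧
        (T z)ᶜ ⊆ T y ∧ (T z)ᶜ ⊆ T y' ∧ (T y).ncard = 4)
    (h : PlMap g G) (c : κ → Fin 6)
    (hc : ∀ f f', c f = c f' → ∀ x ∈ G f, ∀ y ∈ G f', dist x y ≠ 1) :
    ∃ U F : Fin 6 → Set (EuclideanSpace ℝ (Fin 2)), Sts G c U F ∧
      (∀ x y, dist x y = 1 → 5 ≤ {j | x ∈ F j}.ncard → {j | y ∈ F j}.ncard ≤ 4) ∧ AltX F := by
  obtain ⟨U, F, h1, h2, h3 | ⟨z, v, hzv, hv, a, b, c', d, h4, h5, h6, h7⟩⟩ :=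
    dfinX3 h55 hX3 hF h c hc
  · obtain ⟨z, a, b, c', d, h4, h5, h6, h7, h8⟩ := h3
    exact ⟨U, F, h1, h2, z, a, b, c', d, h4, h5, h6, h7, h8.imp id Or.inl⟩
  · exact ⟨U, F, h1, h2, z, a, b, c', d, h4, h5, h6, h7, Or.inr (Or.inr ⟨v, hzv, hv⟩)⟩

end Vale.Agent.P032.H763
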